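import Crest.Agent.Helper62.S0466.Defs

/-!
# S0466, leaf EASY (Blueprint statement `PP_subset_QQ`) — independent (hedge) copy

The perfect-matching polytope lies in Edmonds' polyhedron.
-/

set_option autoImplicit false
set_option linter.unusedSectionVars false

namespace Crest.Agent.Helper48.S0466

open Crest.Agent.Helper62.S0466 Finset

variable {V E : Type} [DecidableEq V] [DecidableEq E]

/-- Summing the indicator of `M ⊆ F` over a filter of `F` counts the same filter of `M`. -/
theorem sum_filter_ind_eq_card {F M : Finset E} (hMF : M ⊆ F) (p : E → Prop) [DecidablePred p] :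
    ∑ e ∈ F.filter p, Crest.Agent.Helper62.S0466.ind M e = ((M.filter p).card : ℝ) := by
  have h1 : ∑ e ∈ F.filter p, Crest.Agent.Helper62.S0466.ind M e
      = ∑ e ∈ (F.filter p).filter (fun e => e ∈ M), (1 : ℝ) := by
    rw [sum_filter (s := F.filter p) (p := fun e => e ∈ M)]
    rfl
  have h2 : (F.filter p).filter (fun e => e ∈ M) = M.filter p := by
    ext e
    simp only [mem_filter]
    constructor
    · rintro ⟨⟨_, hp⟩, hM⟩; exact ⟨hM, hp⟩
    · rintro ⟨hM, hp⟩; exact ⟨⟨hMF hM, hp⟩, hM⟩
  rw [h1, h2, sum_const, nsmul_eq_mul, mul_one]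

/-- A perfect matching meets every odd cut. -/
theorem cut_nonempty_of_isPM {ends : E → V × V} {A : Finset V} {F : Finset E} (hWF : WF ends A F)
    {M : Finset E} (hM : IsPM ends A F M) {U : Finset V} (hUA : U ⊆ A) (hodd : Odd U.card) :
    (cut ends M U).Nonempty := by
  by_contra hne
  rw [not_nonempty_iff_eq_empty] at hne
  obtain ⟨hMF, hdeg⟩ := hM
  -- every edge of `M` has both ends in `U` or none
  have hboth : ∀ e ∈ M, ((ends e).1 ∈ U ↔ (ends e).2 ∈ U) := by
    intro e he
    have hnot : e ∉ cut ends M U := by rw [hne]; exact notMem_empty e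
    unfold cut at hnot
    rw [mem_filter] at hnot
    constructor
    · intro h1
      by_contra h2
      exact hnot ⟨he, Or.inl ⟨h1, h2⟩⟩
    · intro h2
      by_contra h1
      exact hnot ⟨he, Or.inr ⟨h1, h2⟩⟩
  -- double counting
  have hcount : U.card = ∑ e ∈ M, (U.filter fun w => (ends e).1 = w ∨ (ends e).2 = w).card := by
    have h1 : U.card = ∑ w ∈ U, (star ends M w).card := by
      rw [card_eq_sum_ones]
      exact sum_congr rfl fun w hw => (hdeg w (hUA hw)).symm
    rw [h1]
    unfold Crest.Agent.Helper62.S0466.star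
    simp only [card_filter]
    exact sum_comm
  have hterm : ∀ e ∈ M, (U.filter fun w => (ends e).1 = w ∨ (ends e).2 = w).card
      = 2 * (if (ends e).1 ∈ U then 1 else 0) := by
    intro e he
    have hne12 : (ends e).1 ≠ (ends e).2 := (hWF e (hMF he)).2.2
    by_cases h1 : (ends e).1 ∈ U
    · have h2 : (ends e).2 ∈ U := (hboth e he).1 h1
      have : (U.filter fun w => (ends e).1 = w ∨ (ends e).2 = w) = {(ends e).1, (ends e).2} := by
        ext w
        simp only [mem_filter, mem_insert, mem_singleton]
        constructor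
        · rintro ⟨_, h | h⟩
          · exact Or.inl h.symm
          · exact Or.inr h.symm
        · rintro (h | h)
          · exact ⟨h ▸ h1, Or.inl h.symm⟩
          · exact ⟨h ▸ h2, Or.inr h.symm⟩
      rw [this, card_pair hne12, if_pos h1]
    · have h2 : (ends e).2 ∉ U := fun h => h1 ((hboth e he).2 h)
      have : (U.filter fun w => (ends e).1 = w ∨ (ends e).2 = w) = ∅ := by
        ext w
        simp only [mem_filter, notMem_empty, iff_false, not_and]
        rintro hw (h | h)
        · exact h1 (h ▸ hw)
        · exact h2 (h ▸ hw)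
      rw [this, card_empty, if_neg h1]
  rw [sum_congr rfl hterm, ← mul_sum] at hcount
  exact (Nat.not_even_iff_odd.2 hodd) ⟨_, by rw [hcount]; ring⟩

/-- The indicator of a perfect matching lies in Edmonds' polyhedron. -/
theorem ind_mem_QQ {ends : E → V × V} {A : Finset V} {F : Finset E} (hWF : WF ends A F)
    {M : Finset E} (hM : IsPM ends A F M) :
    Crest.Agent.Helper62.S0466.ind M ∈ QQ ends A F := by
  have hMF := hM.1
  refine ⟨?_, ?_, ?_, ?_⟩
  · intro e he
    unfold Crest.Agent.Helper62.S0466.ind
    rw [if_neg fun h => he (hMF h)]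
  · intro e
    unfold Crest.Agent.Helper62.S0466.ind
    split_ifs <;> norm_num
  · intro w hw
    unfold Crest.Agent.Helper62.S0466.star
    rw [sum_filter_ind_eq_card hMF]
    have := hM.2 w hw
    unfold Crest.Agent.Helper62.S0466.star at this
    rw [this, Nat.cast_one]
  · intro U hUA hodd
    unfold cut
    rw [sum_filter_ind_eq_card hMF]
    have hne := cut_nonempty_of_isPM hWF hM hUA hodd
    unfold cut at hne
    exact_mod_cast card_pos.2 hne

/-- Edmonds' polyhedron is convex. -/
theorem convex_QQ (ends : E → V × V) (A : Finset V) (F : Finset E) : Convex ℝ (QQ ends A F) := by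
  intro x hx y hy a b ha hb hab
  obtain ⟨hx0, hxn, hxs, hxc⟩ := hx
  obtain ⟨hy0, hyn, hys, hyc⟩ := hy
  refine ⟨?_, ?_, ?_, ?_⟩
  · intro e he
    simp only [Pi.add_apply, Pi.smul_apply, smul_eq_mul, hx0 e he, hy0 e he, mul_zero, add_zero]
  · intro e
    simp only [Pi.add_apply, Pi.smul_apply, smul_eq_mul]
    exact add_nonneg (mul_nonneg ha (hxn e)) (mul_nonneg hb (hyn e))
  · intro w hw
    simp only [Pi.add_apply, Pi.smul_apply, smul_eq_mul]
    rw [sum_add_distrib, ← mul_sum, ← mul_sum, hxs w hw, hys w hw, mul_one, mul_one, hab]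
  · intro U hUA hodd
    simp only [Pi.add_apply, Pi.smul_apply, smul_eq_mul]
    rw [sum_add_distrib, ← mul_sum, ← mul_sum]
    have h1 := hxc U hUA hodd
    have h2 := hyc U hUA hodd
    calc (1 : ℝ) = a * 1 + b * 1 := by rw [mul_one, mul_one, hab]
      _ ≤ a * ∑ e ∈ cut ends F U, x e + b * ∑ e ∈ cut ends F U, y e :=
        add_le_add (mul_le_mul_of_nonneg_left h1 ha) (mul_le_mul_of_nonneg_left h2 hb)

/-- The perfect-matching polytope lies in Edmonds' polyhedron. -/
theorem PP_subset_QQ {ends : E → V × V} {A : Finset V} {F : Finset E} (hWF : WF ends A F) :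
    PP ends A F ⊆ QQ ends A F := by
  unfold PP
  refine convexHull_min ?_ (convex_QQ ends A F)
  rintro _ ⟨M, hM, rfl⟩
  exact ind_mem_QQ hWF hM

end Crest.Agent.Helper48.S0466
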