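import Crest.Agent.Helper62.S0466.Defs

/-!
# S0466, leaf EXT2c (Blueprint statement `false_of_two_regular`) — independent (hedge) copy
-/

set_option autoImplicit false
set_option linter.unusedSectionVars false
set_option linter.unusedVariables false
set_option linter.unnecessarySeqFocus false

namespace Crest.Agent.Helper48.S0466

open Crest.Agent.Helper62.S0466 Finset

variable {V E : Type} [DecidableEq V] [DecidableEq E]

/-- Double counting: the star sums over a vertex set `S` count every edge once per end in `S`. -/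
theorem sum_star_eq {ends : E → V × V} {A : Finset V} {F : Finset E} (hWF : WF ends A F)
    (S : Finset V) (h : E → ℝ) :
    ∑ s ∈ S, ∑ g ∈ Crest.Agent.Helper62.S0466.star ends F s, h g
      = ∑ g ∈ F, h g * ((if (ends g).1 ∈ S then 1 else 0) + (if (ends g).2 ∈ S then 1 else 0)) := by
  unfold Crest.Agent.Helper62.S0466.star
  simp only [sum_filter]
  rw [sum_comm]
  refine sum_congr rfl fun g hg => ?_
  have hne : (ends g).1 ≠ (ends g).2 := (hWF g hg).2.2
  have hpt : ∀ s ∈ S, (if (ends g).1 = s ∨ (ends g).2 = s then h g else 0)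
      = (if (ends g).1 = s then h g else 0) + (if (ends g).2 = s then h g else 0) := by
    intro s _
    by_cases h1 : (ends g).1 = s
    · have h2 : ¬ (ends g).2 = s := fun h2 => hne (h1.trans h2.symm)
      rw [if_pos (Or.inl h1), if_pos h1, if_neg h2, add_zero]
    · by_cases h2 : (ends g).2 = s
      · rw [if_pos (Or.inr h2), if_neg h1, if_pos h2, zero_add]
      · rw [if_neg (fun h => h.elim h1 h2), if_neg h1, if_neg h2, add_zero]
  rw [sum_congr rfl hpt, sum_add_distrib, sum_ite_eq, sum_ite_eq, mul_add]
  congr 1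
  · split_ifs <;> simp
  · split_ifs <;> simp

/-- The cut sum and the inner sum of a vertex set. -/
theorem sum_ends_eq_cut_add_inner {ends : E → V × V} (F : Finset E) (S : Finset V) (h : E → ℝ) :
    ∑ g ∈ F, h g * ((if (ends g).1 ∈ S then 1 else 0) + (if (ends g).2 ∈ S then 1 else 0))
      = ∑ g ∈ cut ends F S, h g
        + 2 * ∑ g ∈ F.filter (fun g => (ends g).1 ∈ S ∧ (ends g).2 ∈ S), h g := by
  unfold cut
  rw [sum_filter, sum_filter, mul_sum, ← sum_add_distrib]
  refine sum_congr rfl fun g _ => ?_
  by_cases h1 : (ends g).1 ∈ S <;> by_cases h2 : (ends g).2 ∈ S <;> simp [h1, h2] <;> ring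

/-- The two ends of an edge at `v`: `v` and another active vertex `u ≠ v`. -/
theorem exists_other_end {ends : E → V × V} {A : Finset V} {F : Finset E} (hWF : WF ends A F)
    {e : E} (he : e ∈ F) {v : V} (hv : (ends e).1 = v ∨ (ends e).2 = v) :
    ∃ u, u ∈ A ∧ u ≠ v ∧ ∀ s, ((ends e).1 = s ∨ (ends e).2 = s) ↔ (s = v ∨ s = u) := by
  obtain ⟨h1, h2, hne⟩ := hWF e he
  rcases hv with hv | hv
  · refine ⟨(ends e).2, h2, fun h => hne (hv.trans h.symm), fun s => ?_⟩
    rw [hv]
    constructor
    · rintro (h | h)
      · exact Or.inl h.symm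
      · exact Or.inr h.symm
    · rintro (h | h)
      · exact Or.inl h.symm
      · exact Or.inr h.symm
  · refine ⟨(ends e).1, h1, fun h => hne (h.trans hv.symm), fun s => ?_⟩
    rw [hv]
    constructor
    · rintro (h | h)
      · exact Or.inr h.symm
      · exact Or.inl h.symm
    · rintro (h | h)
      · exact Or.inr h.symm
      · exact Or.inl h.symm

/-- A bipartition `(X, A \ X)` of the graph contradicts surjectivity of the star map. -/
theorem false_of_bipartite {ends : E → V × V} {A : Finset V} {F : Finset E} (hWF : WF ends A F)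
    (hsurj : ∀ y : V → ℝ, ∃ h : E → ℝ, (∀ e, e ∉ F → h e = 0) ∧
      ∀ w ∈ A, ∑ e ∈ Crest.Agent.Helper62.S0466.star ends F w, h e = y w)
    (X : Finset V) (hXA : X ⊆ A) {v : V} (hvA : v ∈ A) (hvX : v ∉ X)
    (hbip : ∀ g ∈ F, ((ends g).1 ∈ X ∧ (ends g).2 ∉ X) ∨ ((ends g).1 ∉ X ∧ (ends g).2 ∈ X)) :
    False := by
  obtain ⟨h, -, hh⟩ := hsurj fun s => if s = v then 1 else 0
  have e1 : ∑ s ∈ X, ∑ g ∈ Crest.Agent.Helper62.S0466.star ends F s, h g = ∑ g ∈ F, h g := by
    rw [sum_star_eq hWF]
    refine sum_congr rfl fun g hg => ?_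
    rcases hbip g hg with ⟨h1, h2⟩ | ⟨h1, h2⟩
    · rw [if_pos h1, if_neg h2, add_zero, mul_one]
    · rw [if_neg h1, if_pos h2, zero_add, mul_one]
  have e2 : ∑ s ∈ A \ X, ∑ g ∈ Crest.Agent.Helper62.S0466.star ends F s, h g = ∑ g ∈ F, h g := by
    rw [sum_star_eq hWF]
    refine sum_congr rfl fun g hg => ?_
    obtain ⟨hA1, hA2, -⟩ := hWF g hg
    rcases hbip g hg with ⟨h1, h2⟩ | ⟨h1, h2⟩
    · rw [if_neg (fun hm => (mem_sdiff.1 hm).2 h1), if_pos (mem_sdiff.2 ⟨hA2, h2⟩), zero_add,
        mul_one]
    · rw [if_pos (mem_sdiff.2 ⟨hA1, h1⟩), if_neg (fun hm => (mem_sdiff.1 hm).2 h2), add_zero,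
        mul_one]
  have f1 : ∑ s ∈ X, ∑ g ∈ Crest.Agent.Helper62.S0466.star ends F s, h g = 0 := by
    refine sum_eq_zero fun s hs => ?_
    rw [hh s (hXA hs), if_neg (fun hsv : s = v => hvX (hsv ▸ hs))]
  have f2 : ∑ s ∈ A \ X, ∑ g ∈ Crest.Agent.Helper62.S0466.star ends F s, h g = 1 := by
    have : ∀ s ∈ A \ X, ∑ g ∈ Crest.Agent.Helper62.S0466.star ends F s, h g
        = if s = v then (1 : ℝ) else 0 := fun s hs => hh s (mem_sdiff.1 hs).1
    rw [sum_congr rfl this, sum_ite_eq', if_pos (mem_sdiff.2 ⟨hvA, hvX⟩)]
  rw [e1] at f1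
  rw [e2, f1] at f2
  exact zero_ne_one f2

/-- A point of `QQ`, positive on `F`, in a graph with all degrees two, with bijective star map
and without nontrivial tight odd set: impossible. -/
theorem false_of_two_regular {ends : E → V × V} {A : Finset V} {F : Finset E} (hWF : WF ends A F)
    {x : E → ℝ} (hx : x ∈ QQ ends A F) (hpos : ∀ e ∈ F, 0 < x e) (hA : A.Nonempty)
    (hdeg2 : ∀ w ∈ A, (star ends F w).card = 2)
    (hinj : ∀ h : E → ℝ, (∀ e, e ∉ F → h e = 0) →
      (∀ w ∈ A, ∑ e ∈ star ends F w, h e = 0) → h = 0)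
    (hsurj : ∀ y : V → ℝ, ∃ h : E → ℝ, (∀ e, e ∉ F → h e = 0) ∧
      ∀ w ∈ A, ∑ e ∈ star ends F w, h e = y w)
    (hnt : ∀ S : Finset V, S ⊆ A → Odd S.card → 3 ≤ S.card → S.card + 3 ≤ A.card →
      ∑ e ∈ cut ends F S, x e ≠ 1) :
    False := by
  obtain ⟨hx0, hxn, hxs, hxc⟩ := hx
  obtain ⟨v, hvA⟩ := hA
  obtain ⟨e, f, hef, hst⟩ := card_eq_two.1 (hdeg2 v hvA)
  have memstar : ∀ (g : E) (s : V), g ∈ Crest.Agent.Helper62.S0466.star ends F s ↔
      g ∈ F ∧ ((ends g).1 = s ∨ (ends g).2 = s) := by
    intro g s
    unfold Crest.Agent.Helper62.S0466.star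
    exact mem_filter
  have he : e ∈ Crest.Agent.Helper62.S0466.star ends F v := by rw [hst]; exact mem_insert_self _ _
  have hf : f ∈ Crest.Agent.Helper62.S0466.star ends F v := by
    rw [hst]; exact mem_insert_of_mem (mem_singleton_self _)
  rw [memstar] at he hf
  obtain ⟨heF, hev⟩ := he
  obtain ⟨hfF, hfv⟩ := hf
  obtain ⟨u, huA, huv, hue⟩ := exists_other_end hWF heF hev
  obtain ⟨w, hwA, hwv, hwf⟩ := exists_other_end hWF hfF hfv
  have hxef : x e + x f = 1 := by
    have := hxs v hvA
    rw [hst, sum_pair hef] at this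
    exact this
  by_cases huw : u = w
  · -- parallel edges `e`, `f` between `v` and `u`: `ind {e} - ind {f}` is in the kernel
    have key := hinj (fun g => (if g = e then (1 : ℝ) else 0) - (if g = f then 1 else 0))
      (by
        intro g hg
        have h1 : g ≠ e := fun h => hg (h ▸ heF)
        have h2 : g ≠ f := fun h => hg (h ▸ hfF)
        simp only [if_neg h1, if_neg h2, sub_zero])
      (by
        intro t _
        rw [sum_sub_distrib, sum_ite_eq', sum_ite_eq']
        have h1 : e ∈ Crest.Agent.Helper62.S0466.star ends F t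
            ↔ f ∈ Crest.Agent.Helper62.S0466.star ends F t := by
          rw [memstar, memstar, hue t, hwf t, huw]
          exact ⟨fun h => ⟨hfF, h.2⟩, fun h => ⟨heF, h.2⟩⟩
        by_cases h2 : e ∈ Crest.Agent.Helper62.S0466.star ends F t
        · rw [if_pos h2, if_pos (h1.1 h2), sub_self]
        · rw [if_neg h2, if_neg (fun h => h2 (h1.2 h)), sub_self])
    have := congrFun key e
    simp only [if_true, if_neg hef, sub_zero, Pi.zero_apply] at this
    exact one_ne_zero this
  · -- three distinct vertices `u, v, w`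
    set S : Finset V := {u, v, w} with hS
    have hScard : S.card = 3 := by
      rw [hS, card_insert_of_notMem, card_insert_of_notMem, card_singleton]
      · rw [mem_singleton]; exact fun h => hwv h.symm
      · rw [mem_insert, mem_singleton]
        rintro (h | h)
        · exact huv h
        · exact huw h
    have hSA : S ⊆ A := by
      intro s hs
      rw [hS, mem_insert, mem_insert, mem_singleton] at hs
      rcases hs with rfl | rfl | rfl
      · exact huA
      · exact hvA
      · exact hwA
    have hSodd : Odd S.card := by rw [hScard]; decide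
    have hmemS : ∀ s, s ∈ S ↔ (s = u ∨ s = v ∨ s = w) := by
      intro s; rw [hS, mem_insert, mem_insert, mem_singleton]
    -- the ends of `e` and `f` lie in `S`
    have he1 : (ends e).1 ∈ S := by
      rcases (hue (ends e).1).1 (Or.inl rfl) with h | h
      · rw [hmemS]; exact Or.inr (Or.inl h)
      · rw [hmemS]; exact Or.inl h
    have he2 : (ends e).2 ∈ S := by
      rcases (hue (ends e).2).1 (Or.inr rfl) with h | h
      · rw [hmemS]; exact Or.inr (Or.inl h)
      · rw [hmemS]; exact Or.inl h
    have hf1 : (ends f).1 ∈ S := by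
      rcases (hwf (ends f).1).1 (Or.inl rfl) with h | h
      · rw [hmemS]; exact Or.inr (Or.inl h)
      · rw [hmemS]; exact Or.inr (Or.inr h)
    have hf2 : (ends f).2 ∈ S := by
      rcases (hwf (ends f).2).1 (Or.inr rfl) with h | h
      · rw [hmemS]; exact Or.inr (Or.inl h)
      · rw [hmemS]; exact Or.inr (Or.inr h)
    set I : Finset E := F.filter (fun g => (ends g).1 ∈ S ∧ (ends g).2 ∈ S) with hI
    have heI : e ∈ I := mem_filter.2 ⟨heF, he1, he2⟩
    have hfI : f ∈ I := mem_filter.2 ⟨hfF, hf1, hf2⟩
    -- the counting identity `3 = x(δS) + 2 x(I)`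
    have hthree : (3 : ℝ) = ∑ g ∈ cut ends F S, x g + 2 * ∑ g ∈ I, x g := by
      rw [hI, ← sum_ends_eq_cut_add_inner, ← sum_star_eq hWF]
      rw [sum_congr rfl fun s hs => hxs s (hSA hs), sum_const, hScard]
      norm_num
    have hcut_ge : (1 : ℝ) ≤ ∑ g ∈ cut ends F S, x g := hxc S hSA hSodd
    have hI_ge : x e + x f ≤ ∑ g ∈ I, x g := by
      have hsub : ({e, f} : Finset E) ⊆ I := by
        intro g hg
        rw [mem_insert, mem_singleton] at hg
        rcases hg with rfl | rfl
        · exact heI
        · exact hfI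
      have := sum_le_sum_of_subset_of_nonneg hsub (f := x) fun g _ _ => hxn g
      rwa [sum_pair hef] at this
    have hI_eq : ∑ g ∈ I, x g = 1 := by linarith
    have hcut_eq : ∑ g ∈ cut ends F S, x g = 1 := by linarith
    -- no edge joins `u` and `w`
    have hnouw : ∀ g ∈ F, ¬ (((ends g).1 = u ∧ (ends g).2 = w) ∨ ((ends g).1 = w ∧ (ends g).2 = u)) := by
      intro g hgF hg
      have hgI : g ∈ I := by
        refine mem_filter.2 ⟨hgF, ?_, ?_⟩
        · rw [hmemS]; rcases hg with h | h
          · exact Or.inl h.1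
          · exact Or.inr (Or.inr h.1)
        · rw [hmemS]; rcases hg with h | h
          · exact Or.inr (Or.inr h.2)
          · exact Or.inl h.2
      have hgv : ¬ ((ends g).1 = v ∨ (ends g).2 = v) := by
        rintro (h | h)
        · rcases hg with hg | hg
          · exact huv (hg.1.symm.trans h)
          · exact hwv (hg.1.symm.trans h)
        · rcases hg with hg | hg
          · exact hwv (hg.2.symm.trans h)
          · exact huv (hg.2.symm.trans h)
      have hge : g ≠ e := fun h => hgv (h ▸ hev)
      have hgf : g ≠ f := fun h => hgv (h ▸ hfv)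
      have hsub : ({g, e, f} : Finset E) ⊆ I := by
        intro g' hg'
        rw [mem_insert, mem_insert, mem_singleton] at hg'
        rcases hg' with rfl | rfl | rfl
        · exact hgI
        · exact heI
        · exact hfI
      have := sum_le_sum_of_subset_of_nonneg hsub (f := x) fun g _ _ => hxn g
      rw [sum_insert (by rw [mem_insert, mem_singleton]; exact fun h => h.elim hge hgf),
        sum_pair hef] at this
      have := hpos g hgF
      linarith
    -- `|A| = 4`
    have hA6 : A.card < 6 := by
      by_contra h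
      exact hnt S hSA hSodd (by rw [hScard]) (by rw [hScard]; omega) hcut_eq
    have hAeven : ¬ Odd A.card := by
      intro hodd
      have h1 := hxc A (Subset.refl A) hodd
      have h2 : cut ends F A = ∅ := by
        unfold cut
        refine filter_eq_empty_iff.2 fun g hg => ?_
        obtain ⟨h1, h2, -⟩ := hWF g hg
        rintro (⟨-, h⟩ | ⟨h, -⟩)
        · exact h h2
        · exact h h1
      rw [h2, sum_empty] at h1
      linarith
    have hA3 : 3 ≤ A.card := by rw [← hScard]; exact card_le_card hSA
    have hA4 : A.card = 4 := by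
      have h5 : A.card ≠ 5 := fun h => hAeven (by rw [h]; decide)
      have h3 : A.card ≠ 3 := fun h => hAeven (by rw [h]; decide)
      omega
    -- the bipartition `({u, w}, A \ {u, w})`
    set X : Finset V := {u, w} with hX
    have hXA : X ⊆ A := by
      intro s hs
      rw [hX, mem_insert, mem_singleton] at hs
      rcases hs with rfl | rfl
      · exact huA
      · exact hwA
    have hvX : v ∉ X := by
      rw [hX, mem_insert, mem_singleton]
      rintro (h | h)
      · exact huv h.symm
      · exact hwv h.symm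
    have hXcard : X.card = 2 := by rw [hX]; exact card_pair huw
    have hAXcard : (A \ X).card = 2 := by
      rw [card_sdiff_of_subset hXA, hA4, hXcard]
    have hmemX : ∀ s, s ∈ X ↔ (s = u ∨ s = w) := by
      intro s; rw [hX, mem_insert, mem_singleton]
    refine false_of_bipartite hWF hsurj X hXA hvA hvX fun g hgF => ?_
    obtain ⟨hgA1, hgA2, hgne⟩ := hWF g hgF
    by_cases h1 : (ends g).1 ∈ X
    · left
      refine ⟨h1, fun h2 => hnouw g hgF ?_⟩
      rw [hmemX] at h1 h2
      rcases h1 with h1 | h1 <;> rcases h2 with h2 | h2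
      · exact absurd (h1.trans h2.symm) hgne
      · exact Or.inl ⟨h1, h2⟩
      · exact Or.inr ⟨h1, h2⟩
      · exact absurd (h1.trans h2.symm) hgne
    · right
      refine ⟨h1, ?_⟩
      by_contra h2
      -- both ends in `A \ X`, a set of two elements containing `v`
      have hv_end : (ends g).1 = v ∨ (ends g).2 = v := by
        by_contra hcon
        have hsub : ({v, (ends g).1, (ends g).2} : Finset V) ⊆ A \ X := by
          intro s hs
          rw [mem_insert, mem_insert, mem_singleton] at hs
          rcases hs with rfl | rfl | rfl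
          · exact mem_sdiff.2 ⟨hvA, hvX⟩
          · exact mem_sdiff.2 ⟨hgA1, h1⟩
          · exact mem_sdiff.2 ⟨hgA2, h2⟩
        have hc : ({v, (ends g).1, (ends g).2} : Finset V).card = 3 := by
          rw [card_insert_of_notMem, card_insert_of_notMem, card_singleton]
          · rw [mem_singleton]; exact hgne
          · rw [mem_insert, mem_singleton]
            rintro (h | h)
            · exact hcon (Or.inl h.symm)
            · exact hcon (Or.inr h.symm)
        have := card_le_card hsub
        rw [hc, hAXcard] at this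
        omega
      have hgstar : g ∈ Crest.Agent.Helper62.S0466.star ends F v := (memstar g v).2 ⟨hgF, hv_end⟩
      rw [hst, mem_insert, mem_singleton] at hgstar
      rcases hgstar with rfl | rfl
      · rcases (hue u).2 (Or.inr rfl) with h | h
        · exact h1 ((hmemX _).2 (Or.inl h))
        · exact h2 ((hmemX _).2 (Or.inl h))
      · rcases (hwf w).2 (Or.inr rfl) with h | h
        · exact h1 ((hmemX _).2 (Or.inr h))
        · exact h2 ((hmemX _).2 (Or.inr h))

end Crest.Agent.Helper48.S0466
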