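import Mathlib

/-!
# S0466, leaf GLUE: the abstract gluing of two laws along a common key

Two finitely supported weight functions `p₁ : ι₁ → ℝ`, `p₂ : ι₂ → ℝ` (nonnegative) with key maps
`c₁ : ι₁ → κ`, `c₂ : ι₂ → κ` whose key marginals agree are glued to the weight
`glueW i j = p₁ i * p₂ j / y (c₁ i)` on pairs with the same key (`y` = common key marginal).
The glued weight has both `p₁` and `p₂` as marginals.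
-/

set_option autoImplicit false
set_option linter.unusedSectionVars false

namespace Crest.Agent.Helper48.S0466

open Finset

variable {ι₁ ι₂ κ : Type*} [Fintype ι₁] [Fintype ι₂] [DecidableEq κ]

/-- The key marginal of a weight. -/
noncomputable def keyMarg (p : ι₁ → ℝ) (c : ι₁ → κ) (k : κ) : ℝ :=
  ∑ i ∈ univ.filter (fun i => c i = k), p i

/-- The glued weight on pairs. -/
noncomputable def glueW (p₁ : ι₁ → ℝ) (p₂ : ι₂ → ℝ) (c₁ : ι₁ → κ) (c₂ : ι₂ → κ)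
    (i : ι₁) (j : ι₂) : ℝ :=
  if c₁ i = c₂ j then p₁ i * p₂ j / keyMarg p₁ c₁ (c₁ i) else 0

theorem keyMarg_nonneg {p : ι₁ → ℝ} (hp : ∀ i, 0 ≤ p i) (c : ι₁ → κ) (k : κ) :
    0 ≤ keyMarg p c k :=
  sum_nonneg fun i _ => hp i

theorem le_keyMarg {p : ι₁ → ℝ} (hp : ∀ i, 0 ≤ p i) (c : ι₁ → κ) (i : ι₁) :
    p i ≤ keyMarg p c (c i) := by
  unfold keyMarg
  exact single_le_sum (f := p) (fun j _ => hp j) (by simp)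

theorem glueW_nonneg {p₁ : ι₁ → ℝ} {p₂ : ι₂ → ℝ} (h₁ : ∀ i, 0 ≤ p₁ i) (h₂ : ∀ j, 0 ≤ p₂ j)
    (c₁ : ι₁ → κ) (c₂ : ι₂ → κ) (i : ι₁) (j : ι₂) : 0 ≤ glueW p₁ p₂ c₁ c₂ i j := by
  unfold glueW
  split_ifs
  · exact div_nonneg (mul_nonneg (h₁ i) (h₂ j)) (keyMarg_nonneg h₁ c₁ _)
  · exact le_rfl

/-- Summing the glued weight over the second index gives back `p₁`. -/
theorem sum_glueW_right {p₁ : ι₁ → ℝ} {p₂ : ι₂ → ℝ} (h₁ : ∀ i, 0 ≤ p₁ i)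
    (c₁ : ι₁ → κ) (c₂ : ι₂ → κ)
    (hmarg : ∀ k, keyMarg p₁ c₁ k = keyMarg p₂ c₂ k) (i : ι₁) :
    ∑ j, glueW p₁ p₂ c₁ c₂ i j = p₁ i := by
  have hsum : ∑ j, glueW p₁ p₂ c₁ c₂ i j
      = p₁ i * keyMarg p₂ c₂ (c₁ i) / keyMarg p₁ c₁ (c₁ i) := by
    unfold glueW
    rw [← sum_filter]
    rw [← sum_div, ← mul_sum]
    congr 2
    unfold keyMarg
    refine sum_congr ?_ fun _ _ => rfl
    ext j; simp [eq_comm]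
  rw [hsum, ← hmarg]
  by_cases hy : keyMarg p₁ c₁ (c₁ i) = 0
  · have : p₁ i = 0 := le_antisymm (hy ▸ le_keyMarg h₁ c₁ i) (h₁ i)
    simp [this]
  · field_simp

/-- Summing the glued weight over the first index gives back `p₂`. -/
theorem sum_glueW_left {p₁ : ι₁ → ℝ} {p₂ : ι₂ → ℝ} (h₂ : ∀ j, 0 ≤ p₂ j)
    (c₁ : ι₁ → κ) (c₂ : ι₂ → κ)
    (hmarg : ∀ k, keyMarg p₁ c₁ k = keyMarg p₂ c₂ k) (j : ι₂) :
    ∑ i, glueW p₁ p₂ c₁ c₂ i j = p₂ j := by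
  have hsum : ∑ i, glueW p₁ p₂ c₁ c₂ i j
      = keyMarg p₁ c₁ (c₂ j) * p₂ j / keyMarg p₁ c₁ (c₂ j) := by
    unfold glueW
    rw [← sum_filter]
    have : ∀ i ∈ univ.filter (fun i => c₁ i = c₂ j),
        p₁ i * p₂ j / keyMarg p₁ c₁ (c₁ i) = p₁ i * p₂ j / keyMarg p₁ c₁ (c₂ j) := by
      intro i hi
      rw [(mem_filter.1 hi).2]
    rw [sum_congr rfl this, ← sum_div, ← sum_mul]
    rfl
  rw [hsum]
  by_cases hy : keyMarg p₁ c₁ (c₂ j) = 0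
  · have hle : p₂ j ≤ keyMarg p₂ c₂ (c₂ j) := le_keyMarg h₂ c₂ j
    rw [← hmarg, hy] at hle
    have : p₂ j = 0 := le_antisymm hle (h₂ j)
    simp [this]
  · field_simp

theorem sum_glueW_mul_left {p₁ : ι₁ → ℝ} {p₂ : ι₂ → ℝ} (h₁ : ∀ i, 0 ≤ p₁ i)
    (c₁ : ι₁ → κ) (c₂ : ι₂ → κ)
    (hmarg : ∀ k, keyMarg p₁ c₁ k = keyMarg p₂ c₂ k) (g : ι₁ → ℝ) :
    ∑ i, ∑ j, glueW p₁ p₂ c₁ c₂ i j * g i = ∑ i, p₁ i * g i := by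
  refine sum_congr rfl fun i _ => ?_
  rw [← sum_mul, sum_glueW_right h₁ c₁ c₂ hmarg]

theorem sum_glueW_mul_right {p₁ : ι₁ → ℝ} {p₂ : ι₂ → ℝ} (h₂ : ∀ j, 0 ≤ p₂ j)
    (c₁ : ι₁ → κ) (c₂ : ι₂ → κ)
    (hmarg : ∀ k, keyMarg p₁ c₁ k = keyMarg p₂ c₂ k) (g : ι₂ → ℝ) :
    ∑ i, ∑ j, glueW p₁ p₂ c₁ c₂ i j * g j = ∑ j, p₂ j * g j := by
  rw [sum_comm]
  refine sum_congr rfl fun j _ => ?_
  rw [← sum_mul, sum_glueW_left h₂ c₁ c₂ hmarg]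

theorem sum_glueW {p₁ : ι₁ → ℝ} {p₂ : ι₂ → ℝ} (h₁ : ∀ i, 0 ≤ p₁ i)
    (c₁ : ι₁ → κ) (c₂ : ι₂ → κ)
    (hmarg : ∀ k, keyMarg p₁ c₁ k = keyMarg p₂ c₂ k) :
    ∑ i, ∑ j, glueW p₁ p₂ c₁ c₂ i j = ∑ i, p₁ i :=
  sum_congr rfl fun i _ => sum_glueW_right h₁ c₁ c₂ hmarg i

theorem glueW_ne_zero {p₁ : ι₁ → ℝ} {p₂ : ι₂ → ℝ} {c₁ : ι₁ → κ} {c₂ : ι₂ → κ} {i : ι₁} {j : ι₂}
    (h : glueW p₁ p₂ c₁ c₂ i j ≠ 0) : c₁ i = c₂ j ∧ p₁ i ≠ 0 ∧ p₂ j ≠ 0 := by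
  unfold glueW at h
  split_ifs at h with hc
  · refine ⟨hc, ?_, ?_⟩
    · rintro h0; apply h; simp [h0]
    · rintro h0; apply h; simp [h0]
  · exact absurd rfl h

end Crest.Agent.Helper48.S0466
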