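import Mathlib
import Crest.Agent.Helper48.S0466.GlueCore

/-!
# S0466, leaf GLUE: gluing perfect matchings of the two contractions along a cut

Graph-level core, stated with abstract predicates for "perfect matching of `G/S`" and
"perfect matching of `G/(A \ S)`", so that it can be instantiated with any encoding of contraction.
-/

set_option autoImplicit false
set_option linter.unusedSectionVars false

namespace Crest.Agent.Helper48.S0466

open Finset

variable {V E : Type*} [DecidableEq V] [DecidableEq E]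

/-- Zero-one vector of an edge set. -/
def ind (M : Finset E) : E → ℝ := fun e => if e ∈ M then 1 else 0

theorem ind_apply (M : Finset E) (e : E) : ind M e = if e ∈ M then 1 else 0 := rfl

section core

variable (A S : Finset V) (F : Finset E) (ends : E → V × V)

/-- The union of a perfect matching of `G/S` and one of `G/(A\S)` with the same cut edge is a
perfect matching of `G`. -/
theorem union_isPM (_hS : S ⊆ A)
    {M₁ M₂ : Finset E} (h1F : M₁ ⊆ F) (h2F : M₂ ⊆ F)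
    (h1deg : ∀ w ∈ A \ S, (M₁.filter fun e => (ends e).1 = w ∨ (ends e).2 = w).card = 1)
    (h2deg : ∀ w ∈ S, (M₂.filter fun e => (ends e).1 = w ∨ (ends e).2 = w).card = 1)
    (hkey : (M₁.filter fun e => (ends e).1 ∈ S ∨ (ends e).2 ∈ S)
          = (M₂.filter fun e => (ends e).1 ∈ A \ S ∨ (ends e).2 ∈ A \ S)) :
    M₁ ∪ M₂ ⊆ F ∧
      ∀ w ∈ A, ((M₁ ∪ M₂).filter fun e => (ends e).1 = w ∨ (ends e).2 = w).card = 1 := by
  refine ⟨union_subset h1F h2F, fun w hw => ?_⟩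
  by_cases hwS : w ∈ S
  · -- `w ∈ S`: the edges at `w` are those of `M₂`
    have hsub : (M₁.filter fun e => (ends e).1 = w ∨ (ends e).2 = w)
        ⊆ (M₂.filter fun e => (ends e).1 = w ∨ (ends e).2 = w) := by
      intro e he
      rw [mem_filter] at he ⊢
      have hmem : e ∈ M₁.filter fun e => (ends e).1 ∈ S ∨ (ends e).2 ∈ S := by
        rw [mem_filter]
        refine ⟨he.1, ?_⟩
        rcases he.2 with h | h
        · left; rw [h]; exact hwS
        · right; rw [h]; exact hwS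
      rw [hkey, mem_filter] at hmem
      exact ⟨hmem.1, he.2⟩
    rw [filter_union, union_eq_right.2 hsub]
    exact h2deg w hwS
  · have hwT : w ∈ A \ S := mem_sdiff.2 ⟨hw, hwS⟩
    have hsub : (M₂.filter fun e => (ends e).1 = w ∨ (ends e).2 = w)
        ⊆ (M₁.filter fun e => (ends e).1 = w ∨ (ends e).2 = w) := by
      intro e he
      rw [mem_filter] at he ⊢
      have hmem : e ∈ M₂.filter fun e => (ends e).1 ∈ A \ S ∨ (ends e).2 ∈ A \ S := by
        rw [mem_filter]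
        refine ⟨he.1, ?_⟩
        rcases he.2 with h | h
        · left; rw [h]; exact hwT
        · right; rw [h]; exact hwT
      rw [← hkey, mem_filter] at hmem
      exact ⟨hmem.1, he.2⟩
    rw [filter_union, union_eq_left.2 hsub]
    exact h1deg w hwT


/-- **GLUE, decomposition form.**  If `x` agrees on the edges of `G/S` with a convex combination
of perfect matchings of `G/S`, and on the edges of `G/(A\S)` with a convex combination of perfect
matchings of `G/(A\S)`, then `x` is a convex combination of perfect matchings of `G`. -/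
theorem glue_decomp (hS : S ⊆ A)
    (hwf : ∀ e ∈ F, (ends e).1 ∈ A ∧ (ends e).2 ∈ A)
    (x : E → ℝ) (hx0 : ∀ e, e ∉ F → x e = 0)
    {ι₁ ι₂ : Type*} [Fintype ι₁] [Fintype ι₂]
    (w₁ : ι₁ → ℝ) (M₁ : ι₁ → Finset E) (w₂ : ι₂ → ℝ) (M₂ : ι₂ → Finset E)
    (hw₁ : ∀ i, 0 ≤ w₁ i) (hs₁ : ∑ i, w₁ i = 1)
    (hw₂ : ∀ j, 0 ≤ w₂ j) (_hs₂ : ∑ j, w₂ j = 1)
    (h1F : ∀ i, M₁ i ⊆ F)
    (h1in : ∀ i, ∀ e ∈ M₁ i, ¬ ((ends e).1 ∈ S ∧ (ends e).2 ∈ S))
    (h1star : ∀ i, ((M₁ i).filter fun e => (ends e).1 ∈ S ∨ (ends e).2 ∈ S).card = 1)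
    (h1deg : ∀ i, ∀ w ∈ A \ S,
      ((M₁ i).filter fun e => (ends e).1 = w ∨ (ends e).2 = w).card = 1)
    (h2F : ∀ j, M₂ j ⊆ F)
    (h2in : ∀ j, ∀ e ∈ M₂ j, ¬ ((ends e).1 ∈ A \ S ∧ (ends e).2 ∈ A \ S))
    (h2star : ∀ j, ((M₂ j).filter fun e => (ends e).1 ∈ A \ S ∨ (ends e).2 ∈ A \ S).card = 1)
    (h2deg : ∀ j, ∀ w ∈ S,
      ((M₂ j).filter fun e => (ends e).1 = w ∨ (ends e).2 = w).card = 1)
    (hx1 : ∀ e ∈ F, ¬ ((ends e).1 ∈ S ∧ (ends e).2 ∈ S) → x e = ∑ i, w₁ i * ind (M₁ i) e)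
    (hx2 : ∀ e ∈ F, ¬ ((ends e).1 ∈ A \ S ∧ (ends e).2 ∈ A \ S) →
      x e = ∑ j, w₂ j * ind (M₂ j) e) :
    x ∈ convexHull ℝ (ind '' {M : Finset E | M ⊆ F ∧
      ∀ w ∈ A, (M.filter fun e => (ends e).1 = w ∨ (ends e).2 = w).card = 1}) := by
  classical
  -- elementary facts on the two sides of the cut
  have hST : ∀ v, v ∈ S → v ∉ A \ S := fun v hv h => (mem_sdiff.1 h).2 hv
  have htouchT : ∀ e ∈ F, ¬ ((ends e).1 ∈ S ∧ (ends e).2 ∈ S) →
      ((ends e).1 ∈ A \ S ∨ (ends e).2 ∈ A \ S) := by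
    intro e he hin
    by_cases h1 : (ends e).1 ∈ S
    · right
      exact mem_sdiff.2 ⟨(hwf e he).2, fun h2 => hin ⟨h1, h2⟩⟩
    · left
      exact mem_sdiff.2 ⟨(hwf e he).1, h1⟩
  have htouchS : ∀ e ∈ F, ¬ ((ends e).1 ∈ A \ S ∧ (ends e).2 ∈ A \ S) →
      ((ends e).1 ∈ S ∨ (ends e).2 ∈ S) := by
    intro e he hin
    by_contra hcon
    exact hin ⟨mem_sdiff.2 ⟨(hwf e he).1, fun h => hcon (Or.inl h)⟩,
      mem_sdiff.2 ⟨(hwf e he).2, fun h => hcon (Or.inr h)⟩⟩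
  have hnotinS : ∀ e, ((ends e).1 ∈ A \ S ∨ (ends e).2 ∈ A \ S) →
      ¬ ((ends e).1 ∈ S ∧ (ends e).2 ∈ S) := by
    rintro e (h | h) ⟨h1, h2⟩
    · exact hST _ h1 h
    · exact hST _ h2 h
  have hnotinT : ∀ e, ((ends e).1 ∈ S ∨ (ends e).2 ∈ S) →
      ¬ ((ends e).1 ∈ A \ S ∧ (ends e).2 ∈ A \ S) := by
    rintro e (h | h) ⟨h1, h2⟩
    · exact hST _ h h1
    · exact hST _ h h2
  -- the keys
  set c₁ : ι₁ → Finset E := fun i => (M₁ i).filter fun e => (ends e).1 ∈ S ∨ (ends e).2 ∈ S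
    with hc₁
  set c₂ : ι₂ → Finset E :=
    fun j => (M₂ j).filter fun e => (ends e).1 ∈ A \ S ∨ (ends e).2 ∈ A \ S with hc₂
  have key1 : ∀ i, ∃ e, c₁ i = {e} ∧ e ∈ M₁ i ∧ e ∈ F ∧
      ((ends e).1 ∈ S ∨ (ends e).2 ∈ S) ∧ ((ends e).1 ∈ A \ S ∨ (ends e).2 ∈ A \ S) := by
    intro i
    obtain ⟨e, he⟩ := card_eq_one.1 (h1star i)
    have hmem : e ∈ (M₁ i).filter fun e => (ends e).1 ∈ S ∨ (ends e).2 ∈ S := by
      rw [he]; exact mem_singleton_self e
    rw [mem_filter] at hmem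
    exact ⟨e, he, hmem.1, h1F i hmem.1, hmem.2, htouchT e (h1F i hmem.1) (h1in i e hmem.1)⟩
  have key2 : ∀ j, ∃ e, c₂ j = {e} ∧ e ∈ M₂ j ∧ e ∈ F ∧
      ((ends e).1 ∈ S ∨ (ends e).2 ∈ S) ∧ ((ends e).1 ∈ A \ S ∨ (ends e).2 ∈ A \ S) := by
    intro j
    obtain ⟨e, he⟩ := card_eq_one.1 (h2star j)
    have hmem : e ∈ (M₂ j).filter fun e => (ends e).1 ∈ A \ S ∨ (ends e).2 ∈ A \ S := by
      rw [he]; exact mem_singleton_self e
    rw [mem_filter] at hmem
    exact ⟨e, he, hmem.1, h2F j hmem.1, htouchS e (h2F j hmem.1) (h2in j e hmem.1), hmem.2⟩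
  have k1 : ∀ e, ((ends e).1 ∈ S ∨ (ends e).2 ∈ S) → ∀ i, (c₁ i = {e} ↔ e ∈ M₁ i) := by
    intro e he i
    constructor
    · intro h
      have : e ∈ c₁ i := by rw [h]; exact mem_singleton_self e
      exact (mem_filter.1 this).1
    · intro h
      obtain ⟨e', he', -⟩ := key1 i
      have : e ∈ c₁ i := mem_filter.2 ⟨h, he⟩
      rw [he', mem_singleton] at this
      rw [he', this]
  have k2 : ∀ e, ((ends e).1 ∈ A \ S ∨ (ends e).2 ∈ A \ S) → ∀ j, (c₂ j = {e} ↔ e ∈ M₂ j) := by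
    intro e he j
    constructor
    · intro h
      have : e ∈ c₂ j := by rw [h]; exact mem_singleton_self e
      exact (mem_filter.1 this).1
    · intro h
      obtain ⟨e', he', -⟩ := key2 j
      have : e ∈ c₂ j := mem_filter.2 ⟨h, he⟩
      rw [he', mem_singleton] at this
      rw [he', this]
  -- key marginals agree
  have hmarg : ∀ K, keyMarg w₁ c₁ K = keyMarg w₂ c₂ K := by
    intro K
    by_cases hK : ∃ e, K = {e} ∧ e ∈ F ∧ ((ends e).1 ∈ S ∨ (ends e).2 ∈ S) ∧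
        ((ends e).1 ∈ A \ S ∨ (ends e).2 ∈ A \ S)
    · obtain ⟨e, rfl, heF, heS, heT⟩ := hK
      have e1 : keyMarg w₁ c₁ {e} = x e := by
        rw [hx1 e heF (hnotinS e heT)]
        unfold keyMarg
        rw [sum_filter]
        refine sum_congr rfl fun i _ => ?_
        by_cases hi : e ∈ M₁ i
        · rw [if_pos ((k1 e heS i).2 hi), ind_apply, if_pos hi, mul_one]
        · rw [if_neg (fun h => hi ((k1 e heS i).1 h)), ind_apply, if_neg hi, mul_zero]
      have e2 : keyMarg w₂ c₂ {e} = x e := by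
        rw [hx2 e heF (hnotinT e heS)]
        unfold keyMarg
        rw [sum_filter]
        refine sum_congr rfl fun j _ => ?_
        by_cases hj : e ∈ M₂ j
        · rw [if_pos ((k2 e heT j).2 hj), ind_apply, if_pos hj, mul_one]
        · rw [if_neg (fun h => hj ((k2 e heT j).1 h)), ind_apply, if_neg hj, mul_zero]
      rw [e1, e2]
    · have e1 : keyMarg w₁ c₁ K = 0 := by
        unfold keyMarg
        refine sum_eq_zero fun i hi => ?_
        exfalso
        obtain ⟨e, he, -, heF, heS, heT⟩ := key1 i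
        exact hK ⟨e, by rw [← (mem_filter.1 hi).2, he], heF, heS, heT⟩
      have e2 : keyMarg w₂ c₂ K = 0 := by
        unfold keyMarg
        refine sum_eq_zero fun j hj => ?_
        exfalso
        obtain ⟨e, he, -, heF, heS, heT⟩ := key2 j
        exact hK ⟨e, by rw [← (mem_filter.1 hj).2, he], heF, heS, heT⟩
      rw [e1, e2]
  -- the glued family
  set t : Finset (ι₁ × ι₂) := univ.filter fun q => c₁ q.1 = c₂ q.2 with ht
  set W : ι₁ × ι₂ → ℝ := fun q => glueW w₁ w₂ c₁ c₂ q.1 q.2 with hW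
  set z : ι₁ × ι₂ → (E → ℝ) := fun q => ind (M₁ q.1 ∪ M₂ q.2) with hz
  have hsumt : ∀ g : ι₁ × ι₂ → ℝ, ∑ q ∈ t, W q * g q = ∑ i, ∑ j, glueW w₁ w₂ c₁ c₂ i j * g (i, j) := by
    intro g
    rw [ht, sum_filter, Fintype.sum_prod_type]
    refine sum_congr rfl fun i _ => sum_congr rfl fun j _ => ?_
    by_cases h : c₁ i = c₂ j
    · rw [if_pos h]
    · rw [if_neg h]
      simp only [glueW, if_neg h, zero_mul]
  have hW1 : ∑ q ∈ t, W q = 1 := by
    have := hsumt fun _ => 1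
    simp only [mul_one] at this
    rw [this, sum_glueW hw₁ c₁ c₂ hmarg, hs₁]
  have hmemt : ∀ q ∈ t, z q ∈ ind '' {M : Finset E | M ⊆ F ∧
      ∀ w ∈ A, (M.filter fun e => (ends e).1 = w ∨ (ends e).2 = w).card = 1} := by
    intro q hq
    refine ⟨M₁ q.1 ∪ M₂ q.2, ?_, rfl⟩
    exact union_isPM A S F ends hS (h1F q.1) (h2F q.2) (h1deg q.1) (h2deg q.2) (mem_filter.1 hq).2
  have hcm : t.centerMass W z = x := by
    rw [centerMass_eq_of_sum_1 _ _ hW1]
    funext f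
    rw [Finset.sum_apply]
    simp only [Pi.smul_apply, smul_eq_mul]
    by_cases hfF : f ∈ F
    · by_cases hfS : (ends f).1 ∈ S ∧ (ends f).2 ∈ S
      · -- inner edge of `S`: only `M₂` matters
        have hstep : ∀ q ∈ t, W q * z q f = W q * ind (M₂ q.2) f := by
          intro q _
          have : f ∉ M₁ q.1 := fun h => h1in q.1 f h hfS
          simp only [hz, ind_apply, mem_union, this, false_or]
        rw [sum_congr rfl hstep, hsumt fun q => ind (M₂ q.2) f,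
          sum_glueW_mul_right hw₂ c₁ c₂ hmarg fun j => ind (M₂ j) f]
        exact (hx2 f hfF (hnotinT f (Or.inl hfS.1))).symm
      · -- edge of `G/S`: only `M₁` matters
        have hfT := htouchT f hfF hfS
        have hstep : ∀ q ∈ t, W q * z q f = W q * ind (M₁ q.1) f := by
          intro q hq
          have hiff : (f ∈ M₁ q.1 ∨ f ∈ M₂ q.2) ↔ f ∈ M₁ q.1 := by
            constructor
            · rintro (h | h)
              · exact h
              · have hmem : f ∈ c₂ q.2 := mem_filter.2 ⟨h, hfT⟩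
                rw [← (mem_filter.1 hq).2] at hmem
                exact (mem_filter.1 hmem).1
            · exact Or.inl
          simp only [hz, ind_apply, mem_union, hiff]
        rw [sum_congr rfl hstep, hsumt fun q => ind (M₁ q.1) f,
          sum_glueW_mul_left hw₁ c₁ c₂ hmarg fun i => ind (M₁ i) f]
        exact (hx1 f hfF hfS).symm
    · rw [hx0 f hfF]
      refine sum_eq_zero fun q _ => ?_
      have : f ∉ M₁ q.1 ∪ M₂ q.2 := fun h => hfF (union_subset (h1F q.1) (h2F q.2) h)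
      simp only [hz, ind_apply, this, if_false, mul_zero]
  rw [← hcm]
  refine centerMass_mem_convexHull t (fun q _ => glueW_nonneg hw₁ hw₂ c₁ c₂ q.1 q.2) ?_ hmemt
  rw [hW1]; exact one_pos


/-- **GLUE, convex-hull form with abstract matching predicates.**  `PM₁` stands for "perfect
matching of `G/S`", `PM₂` for "perfect matching of `G/(A\S)`"; the hypotheses `h1`, `h2` list the
only consequences of these notions that the gluing uses. -/
theorem glue_convexHull (hS : S ⊆ A)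
    (hwf : ∀ e ∈ F, (ends e).1 ∈ A ∧ (ends e).2 ∈ A)
    (x : E → ℝ) (hx0 : ∀ e, e ∉ F → x e = 0)
    (PM₁ PM₂ : Finset E → Prop)
    (h1 : ∀ M, PM₁ M → M ⊆ F ∧ (∀ e ∈ M, ¬ ((ends e).1 ∈ S ∧ (ends e).2 ∈ S)) ∧
      (M.filter fun e => (ends e).1 ∈ S ∨ (ends e).2 ∈ S).card = 1 ∧
      ∀ w ∈ A \ S, (M.filter fun e => (ends e).1 = w ∨ (ends e).2 = w).card = 1)
    (h2 : ∀ M, PM₂ M → M ⊆ F ∧ (∀ e ∈ M, ¬ ((ends e).1 ∈ A \ S ∧ (ends e).2 ∈ A \ S)) ∧
      (M.filter fun e => (ends e).1 ∈ A \ S ∨ (ends e).2 ∈ A \ S).card = 1 ∧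
      ∀ w ∈ S, (M.filter fun e => (ends e).1 = w ∨ (ends e).2 = w).card = 1)
    (x₁ x₂ : E → ℝ)
    (hx₁ : ∀ e ∈ F, ¬ ((ends e).1 ∈ S ∧ (ends e).2 ∈ S) → x₁ e = x e)
    (hx₂ : ∀ e ∈ F, ¬ ((ends e).1 ∈ A \ S ∧ (ends e).2 ∈ A \ S) → x₂ e = x e)
    (hP₁ : x₁ ∈ convexHull ℝ (ind '' {M : Finset E | PM₁ M}))
    (hP₂ : x₂ ∈ convexHull ℝ (ind '' {M : Finset E | PM₂ M})) :
    x ∈ convexHull ℝ (ind '' {M : Finset E | M ⊆ F ∧
      ∀ w ∈ A, (M.filter fun e => (ends e).1 = w ∨ (ends e).2 = w).card = 1}) := by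
  classical
  obtain ⟨ι₁, _, w₁, z₁, hw₁, hs₁, hz₁, hsum₁⟩ := mem_convexHull_iff_exists_fintype.1 hP₁
  obtain ⟨ι₂, _, w₂, z₂, hw₂, hs₂, hz₂, hsum₂⟩ := mem_convexHull_iff_exists_fintype.1 hP₂
  choose M₁ hM₁ hMz₁ using hz₁
  choose M₂ hM₂ hMz₂ using hz₂
  refine glue_decomp A S F ends hS hwf x hx0 w₁ M₁ w₂ M₂ hw₁ hs₁ hw₂ hs₂
    (fun i => (h1 _ (hM₁ i)).1) (fun i => (h1 _ (hM₁ i)).2.1) (fun i => (h1 _ (hM₁ i)).2.2.1)
    (fun i => (h1 _ (hM₁ i)).2.2.2)
    (fun j => (h2 _ (hM₂ j)).1) (fun j => (h2 _ (hM₂ j)).2.1) (fun j => (h2 _ (hM₂ j)).2.2.1)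
    (fun j => (h2 _ (hM₂ j)).2.2.2) ?_ ?_
  · intro e he hin
    rw [← hx₁ e he hin, ← hsum₁, Finset.sum_apply]
    refine sum_congr rfl fun i _ => ?_
    rw [Pi.smul_apply, smul_eq_mul, hMz₁ i]
  · intro e he hin
    rw [← hx₂ e he hin, ← hsum₂, Finset.sum_apply]
    refine sum_congr rfl fun j _ => ?_
    rw [Pi.smul_apply, smul_eq_mul, hMz₂ j]

end core

end Crest.Agent.Helper48.S0466
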