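import Crest.Agent.Helper62.S0466.Defs
import Crest.Agent.Helper48.S0466.GlueGraph

/-!
# S0466, leaf GLUE (Blueprint statement `glue`)

Bridge from the encoding-independent gluing theorem `glue_convexHull` (file `GlueGraph.lean`)
to the definitions of `Crest.Agent.Helper62.S0466.Defs`.
-/

set_option autoImplicit false
set_option linter.unusedSectionVars false
set_option linter.unusedVariables false

namespace Crest.Agent.Helper48.S0466

open Crest.Agent.Helper62.S0466

variable {V E : Type} [DecidableEq V] [DecidableEq E]

/-- For `r ∈ S`: the retraction sends `v` to `r` exactly when `v ∈ S`. -/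
theorem retr_eq_rep_iff {S : Finset V} {r : V} (hr : r ∈ S) (v : V) :
    retr S r v = r ↔ v ∈ S := by
  unfold retr
  constructor
  · intro h
    by_cases hv : v ∈ S
    · exact hv
    · rw [if_neg hv] at h
      rw [h]; exact hr
  · intro hv
    rw [if_pos hv]

/-- For `w ∉ S` and `r ∈ S`: the retraction sends `v` to `w` exactly when `v = w`. -/
theorem retr_eq_iff_of_notMem {S : Finset V} {r : V} (hr : r ∈ S) {w : V} (hw : w ∉ S) (v : V) :
    retr S r v = w ↔ v = w := by
  unfold retr
  constructor
  · intro h
    by_cases hv : v ∈ S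
    · rw [if_pos hv] at h
      exact absurd (h ▸ hr) hw
    · rwa [if_neg hv] at h
  · intro hv
    rw [hv, if_neg hw]

/-- What the gluing needs to know about a perfect matching of the contraction `G / S`. -/
theorem isPM_contract_facts {ends : E → V × V} {A : Finset V} {F : Finset E}
    {S : Finset V} {r : V} (hr : r ∈ S) {M : Finset E}
    (hM : IsPM (cEnds ends S r) (cVerts A S r) (cEdges ends F S) M) :
    M ⊆ F ∧ (∀ e ∈ M, ¬ ((ends e).1 ∈ S ∧ (ends e).2 ∈ S)) ∧
      (M.filter fun e => (ends e).1 ∈ S ∨ (ends e).2 ∈ S).card = 1 ∧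
      ∀ w ∈ A \ S, (M.filter fun e => (ends e).1 = w ∨ (ends e).2 = w).card = 1 := by
  obtain ⟨hsub, hdeg⟩ := hM
  refine ⟨fun e he => (Finset.mem_filter.1 (hsub he)).1,
    fun e he => (Finset.mem_filter.1 (hsub he)).2, ?_, ?_⟩
  · have h := hdeg r (Finset.mem_insert_self r _)
    have heq : Crest.Agent.Helper62.S0466.star (cEnds ends S r) M r
        = M.filter fun e => (ends e).1 ∈ S ∨ (ends e).2 ∈ S := by
      unfold Crest.Agent.Helper62.S0466.star cEnds
      refine Finset.filter_congr fun e _ => ?_
      simp only [retr_eq_rep_iff hr]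
    rw [heq] at h
    exact h
  · intro w hw
    have hwS : w ∉ S := (Finset.mem_sdiff.1 hw).2
    have h := hdeg w (Finset.mem_insert_of_mem hw)
    have heq : Crest.Agent.Helper62.S0466.star (cEnds ends S r) M w
        = M.filter fun e => (ends e).1 = w ∨ (ends e).2 = w := by
      unfold Crest.Agent.Helper62.S0466.star cEnds
      refine Finset.filter_congr fun e _ => ?_
      simp only [retr_eq_iff_of_notMem hr hwS]
    rw [heq] at h
    exact h

/-- Gluing: if the restrictions of `x` to the two contractions `G / S` and `G / (A \ S)` are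
convex combinations of perfect matchings, so is `x`. -/
theorem glue [Fintype E] {ends : E → V × V} {A : Finset V} {F : Finset E} (hWF : WF ends A F)
    {x : E → ℝ} (hx : x ∈ QQ ends A F) {S : Finset V} (hSA : S ⊆ A) {r r' : V} (hr : r ∈ S)
    (hr' : r' ∈ A \ S) (htight : ∑ e ∈ cut ends F S, x e = 1)
    (h1 : cVec ends S x ∈ PP (cEnds ends S r) (cVerts A S r) (cEdges ends F S))
    (h2 : cVec ends (A \ S) x ∈
      PP (cEnds ends (A \ S) r') (cVerts A (A \ S) r') (cEdges ends F (A \ S))) :
    x ∈ PP ends A F := by
  have hAS : A \ (A \ S) = S := Finset.sdiff_sdiff_eq_self hSA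
  have key := glue_convexHull A S F ends hSA (fun e he => ⟨(hWF e he).1, (hWF e he).2.1⟩) x hx.1
    (fun M => IsPM (cEnds ends S r) (cVerts A S r) (cEdges ends F S) M)
    (fun M => IsPM (cEnds ends (A \ S) r') (cVerts A (A \ S) r') (cEdges ends F (A \ S)) M)
    (fun M hM => isPM_contract_facts hr hM)
    (fun M hM => by
      have h := isPM_contract_facts (A := A) (F := F) hr' hM
      rw [hAS] at h
      exact h)
    (cVec ends S x) (cVec ends (A \ S) x)
    (fun e _ hin => by unfold cVec; rw [if_neg hin])
    (fun e _ hin => by unfold cVec; rw [if_neg hin])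
    h1 h2
  exact key

end Crest.Agent.Helper48.S0466
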